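/-
helper31 -- S0505 squad (track D2, coordinator helper91), leaf B (PathSum):
an entry of a product of `m + 1` square matrices is the sum over all paths.
Own derivation (induction on the number of matrices); nothing recalled from a published proof.
-/
import Crest.Agent.Helper91.S0505.Defs

set_option autoImplicit false

namespace Crest.Agent.Helper31.S0505

open Crest.Agent.Helper91.S0505

/-- The path `i, k, f, j` is the path `k, f, j` shifted by one. -/
theorem ext_cons_succ {n m : ℕ} (i k : Fin n) (f : Fin m → Fin n) (j : Fin n)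
    (x : Fin (m + 2)) :
    ext i (Fin.cons k f : Fin (m + 1) → Fin n) j x.succ = ext k f j x := by
  unfold ext
  rw [Fin.cons_succ, ← Fin.cons_snoc_eq_snoc_cons]

theorem ext_zero {n m : ℕ} (i : Fin n) (f : Fin m → Fin n) (j : Fin n) :
    ext i f j 0 = i := by
  unfold ext
  exact Fin.cons_zero _ _

theorem ofFn_prod_apply {R : Type*} [CommSemiring R] {n m : ℕ}
    (Q : Fin (m + 1) → Matrix (Fin n) (Fin n) R) (i j : Fin n) :
    (List.ofFn Q).prod i j =
      ∑ f : Fin m → Fin n, ∏ g : Fin (m + 1), Q g (ext i f j g.castSucc) (ext i f j g.succ) := by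
  induction m generalizing i with
  | zero =>
    have h1 : ∀ f : Fin 0 → Fin n, ext i f j (1 : Fin 2) = j := by
      intro f
      unfold ext
      have : (1 : Fin 2) = Fin.succ (0 : Fin 1) := rfl
      rw [this, Fin.cons_succ]
      have h0 : (0 : Fin 1) = Fin.last 0 := rfl
      rw [h0, Fin.snoc_last]
    simp only [List.ofFn_succ, List.ofFn_zero, List.prod_cons, List.prod_nil, mul_one,
      Fin.prod_univ_succ, Fin.prod_univ_zero, Finset.univ_unique, Finset.sum_singleton]
    have e0 : (Fin.castSucc (0 : Fin 1)) = (0 : Fin 2) := rfl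
    have e1 : (Fin.succ (0 : Fin 1)) = (1 : Fin 2) := rfl
    rw [e0, e1, ext_zero, h1]
  | succ m ih =>
    rw [List.ofFn_succ, List.prod_cons, Matrix.mul_apply]
    rw [← (Fin.consEquiv (fun _ : Fin (m + 1) => Fin n)).sum_comp, Fintype.sum_prod_type]
    refine Finset.sum_congr rfl fun k _ => ?_
    rw [ih (fun g => Q g.succ) k, Finset.mul_sum]
    refine Finset.sum_congr rfl fun f _ => ?_
    have hcons : (Fin.consEquiv (fun _ : Fin (m + 1) => Fin n)) (k, f) = Fin.cons k f := rfl
    rw [hcons]
    conv_rhs => rw [Fin.prod_univ_succ]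
    have e0 : (Fin.castSucc (0 : Fin (m + 2))) = (0 : Fin (m + 3)) := rfl
    have hA : Q 0 (ext i (Fin.cons k f : Fin (m + 1) → Fin n) j (Fin.castSucc 0))
        (ext i (Fin.cons k f : Fin (m + 1) → Fin n) j (Fin.succ 0)) = Q 0 i k := by
      rw [e0, ext_zero, ext_cons_succ, ext_zero]
    rw [hA]
    congr 1
    refine Finset.prod_congr rfl fun g _ => ?_
    rw [← Fin.succ_castSucc, ext_cons_succ, ext_cons_succ]

end Crest.Agent.Helper31.S0505
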